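import Vale.Agent.P340.H796.Defs
import Mathlib.Data.Finite.Defs
import Mathlib.Data.Nat.Notation

/-!
Weak normalization of the elements of kinds, and consistency.
-/

namespace Vale.Agent.P340

universe u

open Tm

variable {S : Type u}

/-- Weak normalization of the elements of kinds: the expressions `M : A` for which `A` has a kind
sort as type. -/
def WNKinds (P : Spec S) : Prop :=
  ∀ (Γ : List (Tm S)) (M A : Tm S) (t : S), KindSort P t → Typ P Γ M A →
    Typ P Γ A (sort t) → ∃ N, Red M N ∧ Normal N

namespace Vy

/-- New constants: a falsity `⊥ s`, a truth `⊤ s` and a proof of this truth for every sort `s`. -/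
inductive Cst (S : Type u) : Type u where
  | bot (s : S) : Cst S
  | top (s : S) : Cst S
  | pt (s : S) : Cst S

/-- The specification with the new constants, which are sorts without rules:
`⊥ s : s`, `⊤ s : s`, `pt s : ⊤ s`. -/
def ext (P : Spec S) : Spec (S ⊕ Cst S) where
  ax
    | .inl s, .inl t => P.ax s t
    | .inr (.bot s), .inl t => t = s
    | .inr (.top s), .inl t => t = s
    | .inr (.pt s), .inr (.top t) => t = s
    | _, _ => False
  rule
    | .inl a, .inl b, .inl d => P.rule a b d
    | _, _, _ => False

end Vy

/-- Formulas built from the constants `⊥ s` (false) and `⊤ s` (true) by implications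
`A → B`, that is `Π x : A. B` with `x` not free in `B`, with their two-valued truth value. -/
inductive Formula : Bool → Tm (S ⊕ Vy.Cst S) → Prop where
  | bot (s : S) : Formula false (sort (Sum.inr (.bot s)))
  | top (s : S) : Formula true (sort (Sum.inr (.top s)))
  | imp {p q : Bool} {A B : Tm (S ⊕ Vy.Cst S)} : Formula p A → Formula q B →
      Formula (!p || q) (pi A (wk B))

/-- Consistency. Let `Q` be a specification with finitely many sorts, each of which has an
element in some context, that embeds into `P`. In `Q` with the new constants no false formula has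
an element in a context of true formulas. -/
def Consistent (P : Spec S) : Prop :=
  ∀ (T : Type u) (Q : Spec T) (f : T → S), Finite T → Function.Injective f →
    (∀ s t, Q.ax s t → P.ax (f s) (f t)) →
    (∀ s₁ s₂ s₃, Q.rule s₁ s₂ s₃ → P.rule (f s₁) (f s₂) (f s₃)) →
    (∀ s, ∃ (Γ : List (Tm T)) (A : Tm T), Typ Q Γ A (sort s)) →
    ∀ (Γ : List (Tm (T ⊕ Vy.Cst T))) (M A : Tm (T ⊕ Vy.Cst T)),
      (∀ B ∈ Γ, Formula true B) → Formula false A → ¬ Typ (Vy.ext Q) Γ M A

end Vale.Agent.P340
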