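import Vale.Agent.P340.H796.C.B1
import Vale.Agent.P340.H744.Defs

/-!
Strong normalization is equivalent to weak normalization of the elements of kinds and consistency.
-/

namespace Vale.Agent.P340.H796C

universe u

open Tm Vy

variable {S : Type u} {Q : Spec S}

theorem wk_up (B : Tm S) : (wk B).ren (Tm.up Nat.succ) = wk (wk B) := by
  unfold wk
  rw [ren_ren, ren_ren]
  rfl

theorem formula_wk {p : Bool} {A : X S} (h : Formula p A) : Formula p (wk A) := by
  induction h with
  | bot s => exact .bot s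
  | top s => exact .top s
  | @imp p q A B _ _ ih ih' =>
    have e : wk (pi A (wk B)) = pi (wk A) (wk (wk B)) := by
      show pi (wk A) ((wk B).ren (Tm.up Nat.succ)) = _
      rw [wk_up]
    rw [e]
    exact .imp ih ih'

theorem conv_of_wk {A B : X S} (h : Conv (wk A) (wk B)) : Conv A B := by
  have h1 := Conv.inst h (.refl (var 0))
  rwa [inst_wk, inst_wk] at h1

theorem formula_value {p : Bool} {A : X S} (h : Formula p A) : ∀ {q : Bool} {B : X S},
    Formula q B → Conv A B → p = q := by
  induction h with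
  | bot s =>
    intro q B h' hc
    cases h' with
    | bot t => rfl
    | top t => exact absurd hc.sort_inj (by simp)
    | imp _ _ => exact hc.sort_pi.elim
  | top s =>
    intro q B h' hc
    cases h' with
    | bot t => exact absurd hc.sort_inj (by simp)
    | top t => rfl
    | imp _ _ => exact hc.sort_pi.elim
  | imp _ _ ih ih' =>
    intro q B h' hc
    cases h' with
    | bot t => exact hc.symm.sort_pi.elim
    | top t => exact hc.symm.sort_pi.elim
    | imp h1 h2 =>
      obtain ⟨h3, h4⟩ := hc.pi_inj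
      rw [ih h1 h3, ih' h2 (conv_of_wk h4)]

/-- Contexts of true formulas, up to conversion. -/
def FC (Γ : List (X S)) : Prop := ∀ n B, Has Γ n B → ∃ B', Formula true B' ∧ Conv B B'

theorem fc_cons {Γ : List (X S)} (h : FC Γ) {A A' : X S} (hA : Formula true A')
    (hc : Conv A A') : FC (A :: Γ) := by
  intro n B hB
  cases hB with
  | zero => exact ⟨_, formula_wk hA, hc.ren _⟩
  | succ _ hB =>
    obtain ⟨B', h1, h2⟩ := h _ _ hB
    exact ⟨_, formula_wk h1, h2.ren _⟩

theorem fc_of {Γ : List (X S)} (h : ∀ B ∈ Γ, Formula true B) : FC Γ := by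
  induction Γ with
  | nil => intro n B hB; cases hB
  | cons A Γ ih =>
    exact fc_cons (ih fun B hB => h B (List.mem_cons_of_mem _ hB)) (h A (by simp)) (.refl _)

/-- Normal elements of formulas in contexts of true formulas. -/
theorem normal_formula {N : X S} : ∀ {Γ : List (X S)} {A : X S}, FC Γ → T (Vy.ext Q) Γ N A →
    Normal N → (∀ B, Formula false B → ¬ Conv A B) ∧
      (((∃ n, N = var n) ∨ ∃ F Y, N = app F Y) → ∃ B, Formula true B ∧ Conv A B) := by
  induction N with
  | var n =>
    intro Γ A hΓ h _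
    obtain ⟨A0, h1, h2⟩ := h.var_inv
    obtain ⟨B', h3, h4⟩ := hΓ _ _ h1
    have h5 : Conv A B' := h2.symm.trans h4
    refine ⟨fun B hB hc => ?_, fun _ => ⟨B', h3, h5⟩⟩
    exact absurd (formula_value h3 hB (h5.symm.trans hc)) (by simp)
  | sort s =>
    intro Γ A hΓ h _
    obtain ⟨t, h1, h2⟩ := h.sort_inv
    refine ⟨fun B hB hc => ?_, fun h => ?_⟩
    · have h3 := h2.trans hc
      generalize e : false = b at hB
      cases hB with
      | bot s0 =>
        have h4 := h3.sort_inj
        subst h4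
        rcases Vy.ext_ax_inv h1 with ⟨t', e'⟩ | ⟨a, e', -⟩ <;> cases e'
      | top s0 => cases e
      | imp _ _ => exact h3.sort_pi.elim
    · rcases h with ⟨n, e⟩ | ⟨F, Y, e⟩ <;> cases e
  | pi C D _ _ =>
    intro Γ A hΓ h _
    obtain ⟨s1, s2, s3, -, -, h1, h2⟩ := h.pi_inv
    refine ⟨fun B hB hc => ?_, fun h => ?_⟩
    · have h3 := h2.trans hc
      obtain ⟨_, _, t3, -, -, rfl, -⟩ := Vy.ext_rule_inl h1
      generalize e : false = b at hB
      cases hB with
      | bot s0 => exact absurd h3.sort_inj (by simp)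
      | top s0 => cases e
      | imp _ _ => exact h3.sort_pi.elim
    · rcases h with ⟨n, e⟩ | ⟨F, Y, e⟩ <;> cases e
  | lam C M _ ih =>
    intro Γ A hΓ h hn
    obtain ⟨D, s, h1, -, h2⟩ := h.lam_inv
    refine ⟨fun B hB hc => ?_, fun h => ?_⟩
    · have h3 := h2.trans hc
      generalize e : false = b at hB
      cases hB with
      | bot s0 => exact h3.symm.sort_pi.elim
      | top s0 => cases e
      | @imp p q A1 A2 k1 k2 =>
        obtain ⟨h4, h5⟩ := h3.pi_inj
        cases p with
        | false => simp at e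
        | true =>
          cases q with
          | true => simp at e
          | false =>
            exact (ih (fc_cons hΓ k1 h4) h1 hn.lamR).1 _ (formula_wk k2) h5
    · rcases h with ⟨n, e⟩ | ⟨F, Y, e⟩ <;> cases e
  | app F Y ihF ihY =>
    intro Γ A hΓ h hn
    obtain ⟨C, D, h1, h2, h3⟩ := h.app_inv
    have key : ∃ B, Formula true B ∧ Conv A B := by
      have hB : ∃ B, Formula true B ∧ Conv (pi C D) B := by
        cases F with
        | var n => exact (ihF hΓ h1 hn.appL).2 (.inl ⟨n, rfl⟩)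
        | app F' Y' => exact (ihF hΓ h1 hn.appL).2 (.inr ⟨F', Y', rfl⟩)
        | sort s =>
          obtain ⟨t, -, h4⟩ := h1.sort_inv
          exact h4.sort_pi.elim
        | pi C' D' =>
          obtain ⟨s1, s2, s3, -, -, -, h4⟩ := h1.pi_inv
          exact h4.sort_pi.elim
        | lam C' M' => exact absurd (Step.beta C' M' Y) (hn _)
      obtain ⟨B, hB, hc⟩ := hB
      obtain ⟨b, e, hB⟩ : ∃ b, true = b ∧ Formula b B := ⟨true, rfl, hB⟩
      cases hB with
      | bot s0 => exact hc.symm.sort_pi.elim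
      | top s0 => exact hc.symm.sort_pi.elim
      | @imp p q A1 A2 k1 k2 =>
        obtain ⟨h4, h5⟩ := hc.pi_inj
        have h6 : Conv (inst D Y) (inst (wk A2) Y) := Conv.inst h5 (.refl Y)
        rw [inst_wk] at h6
        have h7 : Conv A A2 := h3.symm.trans h6
        cases q with
        | true => exact ⟨A2, k2, h7⟩
        | false =>
          cases p with
          | true => simp at e
          | false => exact ((ihY hΓ h2 hn.appR).1 _ k1 h4).elim
    obtain ⟨B', h4, h5⟩ := key
    refine ⟨fun B hB hc => ?_, fun _ => ⟨B', h4, h5⟩⟩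
    exact absurd (formula_value h4 hB (h5.symm.trans hc)) (by simp)

theorem formula_sort {p : Bool} {A : X S} (h : Formula p A) {Γ : List (X S)}
    {s : S ⊕ Cst S} (hA : T (Vy.ext Q) Γ A (sort s)) : ∃ t, s = .inl t := by
  cases h with
  | bot s0 =>
    obtain ⟨t, h1, h2⟩ := hA.sort_inv
    rcases Vy.ext_ax_inv h1 with ⟨t', rfl⟩ | ⟨a, -, e⟩
    · exact ⟨t', h2.sort_inj.symm⟩
    · cases e
  | top s0 =>
    obtain ⟨t, h1, h2⟩ := hA.sort_inv
    rcases Vy.ext_ax_inv h1 with ⟨t', rfl⟩ | ⟨a, -, e⟩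
    · exact ⟨t', h2.sort_inj.symm⟩
    · cases e
  | imp _ _ =>
    obtain ⟨s1, s2, s3, -, -, h⟩ := pi_inl hA
    exact ⟨s3, h⟩

theorem wfi_of {Γ : List (X S)} (h : WF (Vy.ext Q) Γ) (hf : ∀ B ∈ Γ, Formula true B) :
    WFi Q Γ := by
  induction h with
  | nil => exact .nil
  | cons _ hA ih =>
    obtain ⟨t, rfl⟩ := formula_sort (hf _ (by simp)) hA
    exact .cons (ih fun B hB => hf B (List.mem_cons_of_mem _ hB)) hA

/-- Weakly normalizing finite specifications are consistent. -/
theorem consistent_of_wn [Finite S] (hl : ∀ s, Liv Q s) (hw : WN Q) {Γ : List (X S)}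
    {M A : X S} (hf : ∀ B ∈ Γ, Formula true B) (hA : Formula false A) :
    ¬ Typ (Vy.ext Q) Γ M A := by
  intro h
  obtain ⟨h1, h2⟩ := typ_iff.1 h
  have h3 := wfi_of h1 hf
  obtain ⟨N, h4, h5⟩ := wn_ext hl hw h3 h2
  exact (normal_formula (fc_of hf) (h2.red h1 h4) h5).1 A hA (.refl _)

/-! Morphisms. -/

theorem wn_map {S' : Type u} {P : Spec S'} {f : S → S'} (hf : Mor Q P f) (h : WN P) : WN Q := by
  intro M hM
  obtain ⟨Γ, A, hM⟩ := hM
  obtain ⟨N, h2, h3⟩ := h (M.map f) ⟨_, _, hM.imp (fun h => h.map hf) fun h => h.map hf⟩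
  obtain ⟨N', rfl, h4⟩ := h2.of_map
  exact ⟨N', h4, fun X hX => h3 _ (hX.map _)⟩

theorem liv_of_typ {Γ : List (Tm S)} {A : Tm S} {s : S} (h : Typ Q Γ A (sort s)) : Liv Q s := by
  obtain ⟨h1, h2⟩ := typ_iff.1 h
  exact h2.liv h1 rfl

theorem typ_of_liv {s : S} (h : Liv Q s) : ∃ (Γ : List (Tm S)) (A : Tm S),
    Typ Q Γ A (sort s) := by
  obtain ⟨Ξ, M, h1, -, h2⟩ := exists_type h [] .nil
  exact ⟨_, M, typ_iff.2 ⟨h1, h2⟩⟩

theorem consistent_of_WN {P : Spec S} (h : WN P) : Consistent P := by
  intro T Q f _ _ h1 h2 hl Γ M A hΓ hA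
  have hm : Mor Q P f := ⟨fun h => h1 _ _ h, fun h => h2 _ _ _ h⟩
  refine consistent_of_wn (fun s => ?_) (wn_map hm h) hΓ hA
  obtain ⟨_, _, h3⟩ := hl s
  exact liv_of_typ h3

/-! Links are true formulas. -/

theorem formula_arr (L : List S) {p : Bool} {A : X S} (h : Formula p A) :
    Formula p (Vy.arr L A) := by
  induction L with
  | nil => exact h
  | cons l L ih => exact Formula.imp (.top l) ih

theorem formula_LK (k : S × NE S × S) : Formula true (LK k) := by
  refine formula_arr _ ?_
  exact Formula.imp (formula_arr _ (Formula.imp (.top k.1) (.bot k.2.2))) (.bot k.2.1.b)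

/-- Weak normalization of the elements of kinds and consistency imply strong normalization. -/
theorem sn_of_consistent (P : Spec S) (hW : WNKinds P) (hC : Consistent P) : SN P :=
  sn_of_lcon P hW fun F hF L M b hΓ hM => by
    have : Finite F := hF
    refine hC _ (restr (restr P F) {s | Vy.Liv (restr P F) s}) (fun s => s.val.val)
      inferInstance (fun s t h => Subtype.ext (Subtype.ext h)) (fun s t h => h)
      (fun r s t h => h) (fun s => typ_of_liv (liv_restr s)) (L.map LK) M (cb b) ?_ (.bot b)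
      (typ_iff.2 ⟨hΓ.wf, hM⟩)
    intro B hB
    obtain ⟨k, -, rfl⟩ := List.mem_map.1 hB
    exact formula_LK k

theorem wnKinds_of_wn {P : Spec S} (h : WN P) : WNKinds P :=
  fun Γ M A _ _ hM _ => h M ⟨Γ, A, .inl hM⟩

theorem wn_iff (P : Spec S) : WN P ↔ SN P :=
  ⟨fun h => sn_of_consistent P (wnKinds_of_wn h) (consistent_of_WN h),
    fun h M hM => C1.sn_nf (SN_iff.1 h M hM)⟩

theorem sn_iff (P : Spec S) : SN P ↔ WNKinds P ∧ Consistent P :=
  ⟨fun h => ⟨wnKinds_of_wn ((wn_iff P).2 h), consistent_of_WN ((wn_iff P).2 h)⟩,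
    fun h => sn_of_consistent P h.1 h.2⟩

end Vale.Agent.P340.H796C
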